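import Vale.Agent.P142.Schwarzian

/-!
P142: from the circle means to the area integrals.
-/

noncomputable section

open Set MeasureTheory
open scoped Real ENNReal

namespace Vale.Agent.P142

theorem lintegral_disc_lt_top {g : ℂ → ℂ} (hg : ContinuousOn g disc) {β D : ℝ} (hβ : β < 1)
    (hJ : ∀ r ∈ Ico (0 : ℝ) 1, J g r ≤ D * (1 - r) ^ (-β)) :
    ∫⁻ z in disc, ENNReal.ofReal (‖g z‖ ^ 2) < ⊤ := by
  set S2 : Set (ℝ × ℝ) := Ioo (0 : ℝ) 1 ×ˢ Ioo (-π) π with hS2
  set H : ℝ × ℝ → ℝ≥0∞ := fun p => ENNReal.ofReal (‖g (pt p.1 p.2)‖ ^ 2) with hH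
  have hS2m : MeasurableSet S2 := measurableSet_Ioo.prod measurableSet_Ioo
  have hHm : AEMeasurable H (volume.restrict S2) := by
    refine ContinuousOn.aemeasurable ?_ hS2m
    refine ENNReal.continuous_ofReal.comp_continuousOn ((((continuousOn_pt hg).mono ?_).norm).pow 2)
    exact fun p hp => ⟨⟨by linarith [hp.1.1], hp.1.2⟩, mem_univ _⟩
  have hle : ∫⁻ z in disc, ENNReal.ofReal (‖g z‖ ^ 2) ≤ ∫⁻ p in S2, H p := by
    rw [← lintegral_indicator isOpen_disc.measurableSet,
      ← Complex.lintegral_comp_polarCoord_symm, ← lintegral_indicator hS2m,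
      ← lintegral_indicator polarCoord.open_target.measurableSet]
    refine lintegral_mono fun p => ?_
    by_cases hp : p ∈ polarCoord.target
    · rw [indicator_of_mem hp]
      obtain ⟨hp1, hp2⟩ := hp
      have hpt : Complex.polarCoord.symm p = pt p.1 p.2 := by
        rw [Complex.polarCoord_symm_apply, pt, Complex.exp_mul_I, Complex.ofReal_cos,
          Complex.ofReal_sin]
      rw [hpt]
      by_cases hr : p.1 < 1
      · rw [indicator_of_mem (show p ∈ S2 from ⟨⟨hp1, hr⟩, hp2⟩),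
          indicator_of_mem (pt_mem (by rw [abs_of_pos hp1]; exact hr) _), smul_eq_mul]
        calc ENNReal.ofReal p.1 * ENNReal.ofReal (‖g (pt p.1 p.2)‖ ^ 2)
            ≤ 1 * ENNReal.ofReal (‖g (pt p.1 p.2)‖ ^ 2) := by
              gcongr
              exact ENNReal.ofReal_le_one.2 hr.le
          _ = _ := one_mul _
      · rw [indicator_of_notMem (show pt p.1 p.2 ∉ disc by
          simp [disc, norm_pt, abs_of_pos (show (0 : ℝ) < p.1 from hp1), not_lt.1 hr])]
        simp
    · rw [indicator_of_notMem hp]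
      exact bot_le
  refine hle.trans_lt ?_
  rw [hS2, Measure.volume_eq_prod, setLIntegral_prod _ (by rw [← Measure.volume_eq_prod]; exact hHm)]
  have inner : ∀ r ∈ Ioo (0 : ℝ) 1,
      ∫⁻ θ in Ioo (-π) π, H (r, θ) ≤ ENNReal.ofReal (D * (1 - r) ^ (-β)) := by
    intro r hr
    have hab : |r| < 1 := by rw [abs_of_pos hr.1]; exact hr.2
    have hc := continuous_sq hg hab
    rw [hH, ← ofReal_integral_eq_lintegral_ofReal
      ((hc.integrableOn_Icc (a := -π) (b := π)).mono_set Ioo_subset_Icc_self)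
      (ae_of_all _ fun θ => by positivity)]
    refine ENNReal.ofReal_le_ofReal ((le_of_eq ?_).trans (hJ r ⟨hr.1.le, hr.2⟩))
    rw [J, intervalIntegral.integral_of_le (by linarith [Real.pi_pos]), integral_Ioc_eq_integral_Ioo]
  refine (setLIntegral_mono' measurableSet_Ioo inner).trans_lt ?_
  have h1 : IntervalIntegrable (fun r : ℝ => D * (1 - r) ^ (-β)) volume 0 1 := by
    have h := ((intervalIntegral.intervalIntegrable_rpow' (r := -β) (by linarith) (a := 0)
      (b := 1)).comp_sub_left 1).const_mul D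
    simpa using h.symm
  exact ((intervalIntegrable_iff_integrableOn_Ioo_of_le (by norm_num)).1 h1).lintegral_lt_top

theorem abs_det_smulRight (c : ℂ) :
    |(((ContinuousLinearMap.toSpanSingleton ℂ c).restrictScalars ℝ)).det| = ‖c‖ ^ 2 := by
  have e : (((ContinuousLinearMap.toSpanSingleton ℂ c).restrictScalars ℝ)).det
      = Algebra.norm ℝ c := by
    rw [Algebra.norm_apply, ContinuousLinearMap.det]
    congr 1
    refine LinearMap.ext fun x => ?_
    simp [mul_comm]
  rw [e, Algebra.norm_complex_apply, Complex.normSq_eq_norm_sq, abs_of_nonneg (sq_nonneg _)]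

theorem finite_powers {f : ℂ → ℂ} (hf : DifferentiableOn ℂ f disc)
    (hne : ∀ z ∈ disc, deriv f z ≠ 0)
    (hS : ∀ z ∈ disc, (1 - ‖z‖ ^ 2) ^ 2 * ‖iteratedDeriv 3 f z / deriv f z -
      3 / 2 * (iteratedDeriv 2 f z / deriv f z) ^ 2‖ ≤ 97 / 25) {t : ℝ} (ht : t ∈ Icc (-2 : ℝ) 0) :
    ∫⁻ z in disc, ENNReal.ofReal (‖deriv f z‖ ^ t) < ⊤ := by
  obtain ⟨D, hD⟩ := inv_deriv_bound hf hne hS
  have hg : ContinuousOn (fun z => 1 / deriv f z) disc :=
    continuousOn_const.div (hf.deriv isOpen_disc).continuousOn hne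
  have h2 := lintegral_disc_lt_top hg (by norm_num) hD
  have hvol : volume disc < ⊤ := measure_ball_lt_top
  refine (setLIntegral_mono' isOpen_disc.measurableSet
    (g := fun z => 1 + ENNReal.ofReal (‖1 / deriv f z‖ ^ 2)) fun z hz => ?_).trans_lt ?_
  · have hp : 0 < ‖deriv f z‖ := norm_pos_iff.2 (hne z hz)
    rw [← ENNReal.ofReal_one, ← ENNReal.ofReal_add zero_le_one (by positivity)]
    refine ENNReal.ofReal_le_ofReal ?_
    rw [norm_div, norm_one, div_pow, one_pow]
    rcases le_or_gt 1 ‖deriv f z‖ with h | h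
    · have := Real.rpow_le_one_of_one_le_of_nonpos h ht.2
      have : 0 ≤ 1 / ‖deriv f z‖ ^ 2 := by positivity
      linarith
    · have h3 := Real.rpow_le_rpow_of_exponent_ge hp h.le ht.1
      rw [Real.rpow_neg hp.le, Real.rpow_two] at h3
      rw [one_div]
      linarith
  · rw [lintegral_add_left measurable_const, setLIntegral_const, one_mul]
    exact ENNReal.add_lt_top.2 ⟨hvol, h2⟩

theorem finite_inverse {f φ : ℂ → ℂ} (hf : DifferentiableOn ℂ f disc)
    (hne : ∀ z ∈ disc, deriv f z ≠ 0)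
    (hS : ∀ z ∈ disc, (1 - ‖z‖ ^ 2) ^ 2 * ‖iteratedDeriv 3 f z / deriv f z -
      3 / 2 * (iteratedDeriv 2 f z / deriv f z) ^ 2‖ ≤ 97 / 25)
    (hφ : ∀ z ∈ disc, φ (f z) = z) {s : ℝ} (hs : s ∈ Icc (2 : ℝ) 4) :
    ∫⁻ w in f '' disc, ENNReal.ofReal (‖deriv φ w‖ ^ s) < ⊤ := by
  have hd : ∀ z ∈ disc, HasDerivAt f (deriv f z) z := fun z hz =>
    (hf.differentiableAt (isOpen_disc.mem_nhds hz)).hasDerivAt
  have hinj : InjOn f disc := fun x hx y hy h => by rw [← hφ x hx, ← hφ y hy, h]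
  rw [lintegral_image_eq_lintegral_abs_det_fderiv_mul volume isOpen_disc.measurableSet
    (fun z hz => ((hd z hz).hasFDerivAt.restrictScalars ℝ).hasFDerivWithinAt) hinj]
  refine lt_of_eq_of_lt (setLIntegral_congr_fun isOpen_disc.measurableSet fun z hz => ?_)
    (finite_powers hf hne hS (t := 2 - s) ⟨by linarith [hs.2], by linarith [hs.1]⟩)
  have hst : HasStrictDerivAt f (deriv f z) z :=
    ((hf.analyticAt (isOpen_disc.mem_nhds hz)).hasStrictFDerivAt).hasStrictDerivAt
  have hinv := (hst.to_local_left_inverse (hne z hz)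
    (Filter.eventually_of_mem (isOpen_disc.mem_nhds hz) hφ)).hasDerivAt
  have hp : 0 < ‖deriv f z‖ := norm_pos_iff.2 (hne z hz)
  rw [hinv.deriv, abs_det_smulRight, ← ENNReal.ofReal_mul (sq_nonneg _), norm_inv,
    Real.inv_rpow hp.le, Real.rpow_sub hp, Real.rpow_two, div_eq_mul_inv]

end Vale.Agent.P142
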