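import Mathlib

/-!
P142: square means of a holomorphic function on circles about the origin, as functions of the radius:
monotonicity and the bound of the second derivative by four times the mean of the derivative.
-/

noncomputable section

open Set MeasureTheory intervalIntegral ComplexConjugate
open scoped Real

namespace Vale.Agent.P142

/-- The point of radius `r` and angle `θ`. -/
def pt (r θ : ℝ) : ℂ := r * Complex.exp (θ * Complex.I)

/-- The open unit disc. -/
def disc : Set ℂ := Metric.ball 0 1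

theorem norm_pt (r θ : ℝ) : ‖pt r θ‖ = |r| := by
  simp [pt, Complex.norm_exp_ofReal_mul_I]

theorem pt_mem {r : ℝ} (hr : |r| < 1) (θ : ℝ) : pt r θ ∈ disc := by
  simp [disc, norm_pt, hr]

theorem continuous_pt : Continuous fun p : ℝ × ℝ => pt p.1 p.2 := by
  unfold pt; fun_prop

theorem pt_periodic (r : ℝ) : pt r π = pt r (-π) := by
  simp [pt, Complex.exp_pi_mul_I, Complex.exp_neg_pi_mul_I]

theorem continuousOn_pt {v : ℂ → ℂ} (hv : ContinuousOn v disc) :
    ContinuousOn (fun p : ℝ × ℝ => v (pt p.1 p.2)) (Ioo (-1) 1 ×ˢ univ) :=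
  hv.comp continuous_pt.continuousOn fun p hp => pt_mem (abs_lt.2 ⟨hp.1.1, hp.1.2⟩) _

theorem hasDerivAt_integral_param {F G : ℝ → ℝ → ℝ}
    (hF : ContinuousOn (fun p : ℝ × ℝ => F p.1 p.2) (Ioo (-1) 1 ×ˢ univ))
    (hG : ContinuousOn (fun p : ℝ × ℝ => G p.1 p.2) (Ioo (-1) 1 ×ˢ univ))
    (hd : ∀ r ∈ Ioo (-1 : ℝ) 1, ∀ θ, HasDerivAt (fun s => F s θ) (G r θ) r)
    {r : ℝ} (hr : r ∈ Ioo (-1 : ℝ) 1) :
    HasDerivAt (fun s => ∫ θ in (-π)..π, F s θ) (∫ θ in (-π)..π, G r θ) r := by
  obtain ⟨e, he, hsub⟩ : ∃ e > 0, Icc (r - e) (r + e) ⊆ Ioo (-1 : ℝ) 1 := by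
    refine ⟨min (1 - r) (1 + r) / 2,
      div_pos (lt_min (by linarith [hr.2]) (by linarith [hr.1])) two_pos, fun x hx => ?_⟩
    have h1 := min_le_left (1 - r) (1 + r)
    have h2 := min_le_right (1 - r) (1 + r)
    obtain ⟨ha, hb⟩ := hx
    obtain ⟨hr1, hr2⟩ := hr
    exact ⟨by linarith, by linarith⟩
  have hK : IsCompact (Icc (r - e) (r + e) ×ˢ Icc (-π) π) := isCompact_Icc.prod isCompact_Icc
  obtain ⟨C, hC⟩ := hK.exists_bound_of_continuousOn (hG.mono fun p hp => ⟨hsub hp.1, mem_univ _⟩)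
  have hs : Icc (r - e) (r + e) ∈ nhds r := Icc_mem_nhds (by linarith) (by linarith)
  have slice : ∀ {H : ℝ → ℝ → ℝ},
      ContinuousOn (fun p : ℝ × ℝ => H p.1 p.2) (Ioo (-1) 1 ×ˢ univ) →
      ∀ s ∈ Ioo (-1 : ℝ) 1, Continuous (H s) := by
    intro H hH s hs
    exact hH.comp_continuous (continuous_const.prodMk continuous_id) fun θ => ⟨hs, mem_univ _⟩
  refine (intervalIntegral.hasDerivAt_integral_of_dominated_loc_of_deriv_le hs
    (bound := fun _ => C) ?_ ((slice hF r hr).intervalIntegrable _ _)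
    (slice hG r hr).aestronglyMeasurable ?_ intervalIntegrable_const ?_).2
  · filter_upwards [hs] with s hs using (slice hF s (hsub hs)).aestronglyMeasurable
  · refine ae_of_all _ fun θ hθ s hs => hC (s, θ) ⟨hs, ?_⟩
    rw [uIoc_of_le (by linarith [Real.pi_pos])] at hθ
    exact Ioc_subset_Icc_self hθ
  · exact ae_of_all _ fun θ _ s hs => hd s (hsub hs) θ

/-- The square mean of `u` on the circle of radius `r`, times `2π`. -/
def J (u : ℂ → ℂ) (r : ℝ) : ℝ := ∫ θ in (-π)..π, ‖u (pt r θ)‖ ^ 2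

theorem J_nonneg (u : ℂ → ℂ) (r : ℝ) : 0 ≤ J u r :=
  intervalIntegral.integral_nonneg (by linarith [Real.pi_pos]) fun _ _ => by positivity

theorem continuous_sq {v : ℂ → ℂ} (hv : ContinuousOn v disc) {r : ℝ} (hr : |r| < 1) :
    Continuous fun θ => ‖v (pt r θ)‖ ^ 2 :=
  ((hv.comp_continuous (by unfold pt; fun_prop) fun θ => pt_mem hr θ).norm).pow 2

theorem hasDerivAt_normSq {p : ℝ → ℂ} {p' : ℂ} {t : ℝ} (hp : HasDerivAt p p' t) :
    HasDerivAt (fun s => ‖p s‖ ^ 2) (2 * (conj (p t) * p').re) t := by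
  have h := hp.norm_sq
  rw [Complex.inner, mul_comm] at h
  simpa [mul_comm] using h

theorem hasDerivAt_pt_left {v : ℂ → ℂ} {v' : ℂ} {r θ : ℝ} (hv : HasDerivAt v v' (pt r θ)) :
    HasDerivAt (fun s => v (pt s θ)) (v' * Complex.exp (θ * Complex.I)) r := by
  have h := HasDerivAt.comp (r : ℂ) hv ((hasDerivAt_id (r : ℂ)).mul_const
    (Complex.exp (θ * Complex.I)))
  simp only [one_mul] at h
  exact h.comp_ofReal

theorem hasDerivAt_pt_right {v : ℂ → ℂ} {v' : ℂ} {r θ : ℝ} (hv : HasDerivAt v v' (pt r θ)) :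
    HasDerivAt (fun s => v (pt r s)) (v' * (Complex.I * pt r θ)) θ := by
  have h := HasDerivAt.comp (θ : ℂ) hv
    ((((hasDerivAt_id (θ : ℂ)).mul_const Complex.I).cexp).const_mul (r : ℂ))
  refine (h.comp_ofReal).congr_deriv ?_
  simp only [id_eq, pt]
  ring

section Mean

variable {u u' u'' : ℂ → ℂ} (h1 : ∀ z ∈ disc, HasDerivAt u (u' z) z)
  (h2 : ∀ z ∈ disc, HasDerivAt u' (u'' z) z) (hc : ContinuousOn u'' disc)

/-- The integrand of the first derivative of `J`. -/
def P (u u' : ℂ → ℂ) (r θ : ℝ) : ℝ :=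
  2 * (conj (u (pt r θ)) * (u' (pt r θ) * Complex.exp (θ * Complex.I))).re

/-- The integrand of the second derivative of `J`. -/
def Q (u u' u'' : ℂ → ℂ) (r θ : ℝ) : ℝ :=
  2 * (‖u' (pt r θ)‖ ^ 2 + (conj (u (pt r θ)) *
    (u'' (pt r θ) * Complex.exp (θ * Complex.I) * Complex.exp (θ * Complex.I))).re)

/-- The first derivative of `J`. -/
def J1 (u u' : ℂ → ℂ) (r : ℝ) : ℝ := ∫ θ in (-π)..π, P u u' r θ

/-- The second derivative of `J`. -/
def J2 (u u' u'' : ℂ → ℂ) (r : ℝ) : ℝ := ∫ θ in (-π)..π, Q u u' u'' r θ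

include h1 h2

theorem continuousOn_P :
    ContinuousOn (fun p : ℝ × ℝ => P u u' p.1 p.2) (Ioo (-1) 1 ×ˢ univ) := by
  have a := continuousOn_pt fun z hz => (h1 z hz).continuousAt.continuousWithinAt
  have b := continuousOn_pt fun z hz => (h2 z hz).continuousAt.continuousWithinAt
  exact continuousOn_const.mul (Complex.continuous_re.comp_continuousOn
    ((Complex.continuous_conj.comp_continuousOn a).mul (b.mul (by fun_prop))))

theorem hasDerivAt_J {r : ℝ} (hr : r ∈ Ioo (-1 : ℝ) 1) :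
    HasDerivAt (J u) (J1 u u' r) r := by
  refine hasDerivAt_integral_param ?_ (continuousOn_P h1 h2) (fun s hs θ => ?_) hr
  · exact ((continuousOn_pt fun z hz => (h1 z hz).continuousAt.continuousWithinAt).norm).pow 2
  · exact hasDerivAt_normSq (hasDerivAt_pt_left (h1 _ (pt_mem (abs_lt.2 hs) θ)))

include hc

theorem continuousOn_Q :
    ContinuousOn (fun p : ℝ × ℝ => Q u u' u'' p.1 p.2) (Ioo (-1) 1 ×ˢ univ) := by
  have a := continuousOn_pt fun z hz => (h1 z hz).continuousAt.continuousWithinAt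
  have b := continuousOn_pt fun z hz => (h2 z hz).continuousAt.continuousWithinAt
  exact continuousOn_const.mul ((b.norm.pow 2).add (Complex.continuous_re.comp_continuousOn
    ((Complex.continuous_conj.comp_continuousOn a).mul
      (((continuousOn_pt hc).mul (by fun_prop)).mul (by fun_prop)))))

theorem hasDerivAt_J1 {r : ℝ} (hr : r ∈ Ioo (-1 : ℝ) 1) :
    HasDerivAt (J1 u u') (J2 u u' u'' r) r := by
  refine hasDerivAt_integral_param (continuousOn_P h1 h2) (continuousOn_Q h1 h2 hc)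
    (fun s hs θ => ?_) hr
  have hz := pt_mem (abs_lt.2 hs) θ
  have a := (hasDerivAt_pt_left (h1 _ hz)).star
  have b := (hasDerivAt_pt_left (h2 _ hz)).mul_const (Complex.exp (θ * Complex.I))
  have c := (Complex.reCLM.hasFDerivAt.comp_hasDerivAt s (a.mul b)).const_mul 2
  refine c.congr_deriv ?_
  have hn : ‖Complex.exp (θ * Complex.I)‖ = 1 := Complex.norm_exp_ofReal_mul_I θ
  simp only [Q, Complex.reCLM_apply, Complex.add_re, Complex.star_def]
  congr 1
  congr 1
  rw [← Complex.normSq_eq_conj_mul_self, Complex.ofReal_re, Complex.normSq_eq_norm_sq, norm_mul,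
    hn, mul_one]

/-- The Hardy-Stein identity. -/
theorem hardy_stein {r : ℝ} (hr : r ∈ Ioo (-1 : ℝ) 1) :
    r ^ 2 * J2 u u' u'' r + r * J1 u u' r = 4 * r ^ 2 * J u' r := by
  have hab : |r| < 1 := abs_lt.2 hr
  have slice : ∀ {H : ℝ → ℝ → ℝ},
      ContinuousOn (fun p : ℝ × ℝ => H p.1 p.2) (Ioo (-1) 1 ×ˢ univ) → Continuous (H r) :=
    fun hH => hH.comp_continuous (continuous_const.prodMk continuous_id) fun θ => ⟨hr, mem_univ _⟩
  have cP := slice (continuousOn_P h1 h2)
  have cQ := slice (continuousOn_Q h1 h2 hc)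
  have cY := continuous_sq (fun z hz => (h2 z hz).continuousAt.continuousWithinAt) hab
  have key : ∀ θ, HasDerivAt
      (fun s => (conj (u (pt r s)) * (pt r s * u' (pt r s))).im)
      (r * P u u' r θ / 2 + r ^ 2 * Q u u' u'' r θ / 2 - 2 * (r ^ 2 * ‖u' (pt r θ)‖ ^ 2)) θ := by
    intro θ
    have hz := pt_mem hab θ
    have a := (hasDerivAt_pt_right (h1 _ hz)).star
    have b := (hasDerivAt_pt_right (v := fun z => z) (hasDerivAt_id (pt r θ))).mul
      (hasDerivAt_pt_right (h2 _ hz))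
    have c := Complex.imCLM.hasFDerivAt.comp_hasDerivAt θ (a.mul b)
    refine c.congr_deriv ?_
    simp only [Pi.mul_apply, P, Q, Complex.sq_norm, Complex.normSq_apply, pt, Complex.imCLM_apply,
      Complex.star_def, Complex.mul_re, Complex.mul_im, Complex.add_im, Complex.add_re,
      Complex.conj_re,
      Complex.conj_im, Complex.I_re, Complex.I_im, Complex.ofReal_re, Complex.ofReal_im, map_mul,
      Complex.exp_ofReal_mul_I_re, Complex.exp_ofReal_mul_I_im, Complex.one_re, Complex.one_im]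
    have := Real.sin_sq_add_cos_sq θ
    grind
  have h0 := intervalIntegral.integral_eq_sub_of_hasDerivAt (fun θ _ => key θ)
    (((((cP.const_mul r).div_const 2).add ((cQ.const_mul (r ^ 2)).div_const 2)).sub
      ((cY.const_mul (r ^ 2)).const_mul 2)).intervalIntegrable (-π) π)
  rw [pt_periodic, sub_self, intervalIntegral.integral_sub, intervalIntegral.integral_add,
    intervalIntegral.integral_div, intervalIntegral.integral_div,
    intervalIntegral.integral_const_mul, intervalIntegral.integral_const_mul,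
    intervalIntegral.integral_const_mul, intervalIntegral.integral_const_mul] at h0
  · simp only [J, J1, J2]
    linarith
  all_goals apply Continuous.intervalIntegrable; fun_prop

theorem J1_nonneg {r : ℝ} (hr : r ∈ Ioo (0 : ℝ) 1) : 0 ≤ J1 u u' r := by
  have hsub : Icc (0 : ℝ) r ⊆ Ioo (-1) 1 := fun x hx =>
    ⟨by linarith [hx.1], by linarith [hx.2, hr.2]⟩
  have hd : ∀ x ∈ Icc (0 : ℝ) r,
      HasDerivAt (fun s => s * J1 u u' s) (J1 u u' x + x * J2 u u' u'' x) x := fun x hx => by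
    refine ((hasDerivAt_id x).mul (hasDerivAt_J1 h1 h2 hc (hsub hx))).congr_deriv ?_
    simp
  have hm : MonotoneOn (fun s => s * J1 u u' s) (Icc 0 r) := by
    refine monotoneOn_of_deriv_nonneg (convex_Icc 0 r)
      (fun x hx => (hd x hx).continuousAt.continuousWithinAt)
      (fun x hx => (hd x (interior_subset hx)).differentiableAt.differentiableWithinAt) fun x hx => ?_
    rw [(hd x (interior_subset hx)).deriv]
    rw [interior_Icc] at hx
    have h := hardy_stein h1 h2 hc (hsub (Ioo_subset_Icc_self hx))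
    have hY := J_nonneg u' x
    have : x * (J1 u u' x + x * J2 u u' u'' x) = 4 * x ^ 2 * J u' x := by linarith
    exact nonneg_of_mul_nonneg_right (this ▸ by positivity) hx.1
  have := hm (left_mem_Icc.2 hr.1.le) (right_mem_Icc.2 hr.1.le) hr.1.le
  simp only [zero_mul] at this
  exact nonneg_of_mul_nonneg_right this hr.1

theorem J2_le {r : ℝ} (hr : r ∈ Ioo (0 : ℝ) 1) : J2 u u' u'' r ≤ 4 * J u' r := by
  have h := hardy_stein h1 h2 hc ⟨by linarith [hr.1], hr.2⟩
  have h' := mul_nonneg hr.1.le (J1_nonneg h1 h2 hc hr)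
  nlinarith [pow_pos hr.1 2]

theorem J_monotoneOn : MonotoneOn (J u) (Ico 0 1) := by
  refine monotoneOn_of_deriv_nonneg (convex_Ico 0 1)
    (fun x hx => (hasDerivAt_J h1 h2 ⟨by linarith [hx.1], hx.2⟩).continuousAt.continuousWithinAt)
    (fun x hx => ?_) fun x hx => ?_
  · rw [interior_Ico] at hx
    exact (hasDerivAt_J h1 h2 ⟨by linarith [hx.1], hx.2⟩).differentiableAt.differentiableWithinAt
  · rw [interior_Ico] at hx
    rw [(hasDerivAt_J h1 h2 ⟨by linarith [hx.1], hx.2⟩).deriv]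
    exact J1_nonneg h1 h2 hc hx

end Mean

end Vale.Agent.P142
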