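import Mathlib

/-!
P142: a supersolution of the cooperative system
`a'' ≤ 16 b`, `b'' ≤ L c + P a / x ^ 4`, `c'' ≤ Q b / x ^ 4` (here `x = 1 - r`) bounds its solutions.
-/

noncomputable section

open Set

namespace Vale.Agent.P142

/-- The decreasing power `(1 - r) ^ (-p)`. -/
def w (p r : ℝ) : ℝ := (1 - r) ^ (-p)

theorem w_pos (p : ℝ) {r : ℝ} (hr : r < 1) : 0 < w p r :=
  Real.rpow_pos_of_pos (by linarith) _

theorem hasDerivAt_w (p : ℝ) {r : ℝ} (hr : r < 1) : HasDerivAt (w p) (p * w (p + 1) r) r := by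
  have h := ((hasDerivAt_id r).const_sub 1).rpow_const (p := -p) (Or.inl (by simp; linarith))
  refine h.congr_deriv ?_
  simp only [id_eq, w, show -p - 1 = -(p + 1) by ring]
  ring

theorem w_shift (p : ℝ) (k : ℕ) {r : ℝ} (hr : r < 1) : w (p + k) r * (1 - r) ^ k = w p r := by
  rw [w, w, ← Real.rpow_natCast (1 - r) k, ← Real.rpow_add (by linarith)]
  congr 1
  ring

theorem stays_positive {φ φ1 φ2 : ℝ → ℝ} {r0 r : ℝ} (hr : r0 < r)
    (hd : ∀ x ∈ Icc r0 r, HasDerivAt φ (φ1 x) x) (hd1 : ∀ x ∈ Icc r0 r, HasDerivAt φ1 (φ2 x) x)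
    (h0 : 0 < φ r0) (h1 : 0 < φ1 r0) (h2 : ∀ x ∈ Ioo r0 r, 0 ≤ φ2 x) : 0 < φ r := by
  have m1 : MonotoneOn φ1 (Icc r0 r) := by
    refine monotoneOn_of_deriv_nonneg (convex_Icc _ _)
      (fun x hx => (hd1 x hx).continuousAt.continuousWithinAt)
      (fun x hx => (hd1 x (interior_subset hx)).differentiableAt.differentiableWithinAt) fun x hx => ?_
    rw [(hd1 x (interior_subset hx)).deriv]
    exact h2 x (by rwa [interior_Icc] at hx)
  have m0 : MonotoneOn φ (Icc r0 r) := by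
    refine monotoneOn_of_deriv_nonneg (convex_Icc _ _)
      (fun x hx => (hd x hx).continuousAt.continuousWithinAt)
      (fun x hx => (hd x (interior_subset hx)).differentiableAt.differentiableWithinAt) fun x hx => ?_
    rw [(hd x (interior_subset hx)).deriv]
    exact h1.le.trans (m1 (left_mem_Icc.2 hr.le) (interior_subset hx) (interior_subset hx).1)
  exact h0.trans_le (m0 (left_mem_Icc.2 hr.le) (right_mem_Icc.2 hr.le) hr.le)

/-- The comparison: `a` is at most a multiple of `(1 - r) ^ (-β)`. -/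
theorem system_bound {a a1 a2 b b1 b2 c c1 c2 : ℝ → ℝ} {r0 β b0 c0 L P Q : ℝ}
    (hr0 : r0 < 1) (hβ : 0 < β) (hb0 : 0 < b0) (hc0 : 0 < c0) (hL : 0 ≤ L) (hP : 0 ≤ P) (hQ : 0 ≤ Q)
    (ha : ∀ r ∈ Ico r0 1, HasDerivAt a (a1 r) r ∧ HasDerivAt a1 (a2 r) r)
    (hb : ∀ r ∈ Ico r0 1, HasDerivAt b (b1 r) r ∧ HasDerivAt b1 (b2 r) r)
    (hc : ∀ r ∈ Ico r0 1, HasDerivAt c (c1 r) r ∧ HasDerivAt c1 (c2 r) r)
    (ia : ∀ r ∈ Ioo r0 1, a2 r ≤ 16 * b r)
    (ib : ∀ r ∈ Ioo r0 1, b2 r ≤ L * c r + P / (1 - r) ^ 4 * a r)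
    (ic : ∀ r ∈ Ioo r0 1, c2 r ≤ Q / (1 - r) ^ 4 * b r)
    (ea : 16 * b0 ≤ β * (β + 1)) (eb : L * c0 + P ≤ b0 * ((β + 2) * (β + 3)))
    (ec : Q * b0 ≤ c0 * ((β + 4) * (β + 5))) :
    ∃ D, ∀ r ∈ Ico r0 1, a r ≤ D * (1 - r) ^ (-β) := by
  have hm0 : r0 ∈ Ico r0 1 := ⟨le_rfl, hr0⟩
  obtain ⟨D, hD⟩ : ∃ D : ℝ, ∀ q ∈ ({(a r0, w β r0), (a1 r0, β * w (β + 1) r0),
      (b r0, b0 * w (β + 2) r0), (b1 r0, b0 * ((β + 2) * w (β + 3) r0)),
      (c r0, c0 * w (β + 4) r0), (c1 r0, c0 * ((β + 4) * w (β + 5) r0))} : Finset (ℝ × ℝ)),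
      q.1 / q.2 < D ∧ 0 < D := by
    classical
    obtain ⟨D, hD⟩ := Finset.exists_le (insert (0 : ℝ) (Finset.image (fun q : ℝ × ℝ => q.1 / q.2)
      {(a r0, w β r0), (a1 r0, β * w (β + 1) r0), (b r0, b0 * w (β + 2) r0),
        (b1 r0, b0 * ((β + 2) * w (β + 3) r0)), (c r0, c0 * w (β + 4) r0),
        (c1 r0, c0 * ((β + 4) * w (β + 5) r0))}))
    refine ⟨D + 1, fun q hq => ⟨?_, ?_⟩⟩
    · linarith [hD _ (Finset.mem_insert_of_mem (Finset.mem_image_of_mem _ hq))]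
    · linarith [hD 0 (Finset.mem_insert_self _ _)]
  simp only [Finset.forall_mem_insert, Finset.mem_singleton, forall_eq] at hD
  obtain ⟨⟨dA, hDpos⟩, ⟨dA1, -⟩, ⟨dB, -⟩, ⟨dB1, -⟩, ⟨dC, -⟩, dC1, -⟩ := hD
  rw [div_lt_iff₀ (by first | exact w_pos _ hr0 | exact mul_pos (by linarith) (w_pos _ hr0) |
    exact mul_pos (by linarith) (mul_pos (by linarith) (w_pos _ hr0)))] at dA dA1 dB dB1 dC dC1
  refine ⟨D, fun r hr => ?_⟩
  by_contra hbad
  push Not at hbad
  set fa : ℝ → ℝ := fun s => D * w β s - a s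
  set fb : ℝ → ℝ := fun s => D * (b0 * w (β + 2) s) - b s
  set fc : ℝ → ℝ := fun s => D * (c0 * w (β + 4) s) - c s
  have da : ∀ s ∈ Ico r0 1, HasDerivAt fa (D * (β * w (β + 1) s) - a1 s) s ∧
      HasDerivAt (fun s => D * (β * w (β + 1) s) - a1 s)
        (D * (β * ((β + 1) * w (β + 2) s)) - a2 s) s := fun s hs => by
    refine ⟨((hasDerivAt_w β hs.2).const_mul D).sub (ha s hs).1, ?_⟩
    have := hasDerivAt_w (β + 1) hs.2
    rw [show β + 1 + 1 = β + 2 by ring] at this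
    exact ((this.const_mul β).const_mul D).sub (ha s hs).2
  have db : ∀ s ∈ Ico r0 1, HasDerivAt fb (D * (b0 * ((β + 2) * w (β + 3) s)) - b1 s) s ∧
      HasDerivAt (fun s => D * (b0 * ((β + 2) * w (β + 3) s)) - b1 s)
        (D * (b0 * ((β + 2) * ((β + 3) * w (β + 4) s))) - b2 s) s := fun s hs => by
    have h2 := hasDerivAt_w (β + 2) hs.2
    have h3 := hasDerivAt_w (β + 3) hs.2
    rw [show β + 2 + 1 = β + 3 by ring] at h2
    rw [show β + 3 + 1 = β + 4 by ring] at h3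
    exact ⟨((h2.const_mul b0).const_mul D).sub (hb s hs).1,
      (((h3.const_mul (β + 2)).const_mul b0).const_mul D).sub (hb s hs).2⟩
  have dc : ∀ s ∈ Ico r0 1, HasDerivAt fc (D * (c0 * ((β + 4) * w (β + 5) s)) - c1 s) s ∧
      HasDerivAt (fun s => D * (c0 * ((β + 4) * w (β + 5) s)) - c1 s)
        (D * (c0 * ((β + 4) * ((β + 5) * w (β + 6) s))) - c2 s) s := fun s hs => by
    have h4 := hasDerivAt_w (β + 4) hs.2
    have h5 := hasDerivAt_w (β + 5) hs.2
    rw [show β + 4 + 1 = β + 5 by ring] at h4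
    rw [show β + 5 + 1 = β + 6 by ring] at h5
    exact ⟨((h4.const_mul c0).const_mul D).sub (hc s hs).1,
      (((h5.const_mul (β + 4)).const_mul c0).const_mul D).sub (hc s hs).2⟩
  have hI : Icc r0 r ⊆ Ico r0 1 := fun x hx => ⟨hx.1, hx.2.trans_lt hr.2⟩
  -- the first failure
  set Bad : Set ℝ := Icc r0 r ∩ (fun s => min (fa s) (min (fb s) (fc s))) ⁻¹' Iic 0
  have hcl : IsClosed Bad := by
    refine ContinuousOn.preimage_isClosed_of_isClosed (fun x hx => ?_) isClosed_Icc isClosed_Iic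
    exact ContinuousAt.continuousWithinAt (Filter.Tendsto.min (da x (hI hx)).1.continuousAt
      (Filter.Tendsto.min (db x (hI hx)).1.continuousAt (dc x (hI hx)).1.continuousAt))
  have hne : Bad.Nonempty :=
    ⟨r, right_mem_Icc.2 hr.1, min_le_of_left_le (show D * (1 - r) ^ (-β) - a r ≤ 0 by linarith)⟩
  obtain ⟨⟨hs0, hs1⟩, hsbad⟩ : sInf Bad ∈ Bad := hcl.csInf_mem hne ⟨r0, fun x hx => hx.1.1⟩
  set s := sInf Bad with hs
  have before : ∀ x ∈ Ico r0 s, 0 < fa x ∧ 0 < fb x ∧ 0 < fc x := by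
    intro x hx
    by_contra h
    have : x ∈ Bad := by
      refine ⟨⟨hx.1, hx.2.le.trans hs1⟩, ?_⟩
      simp only [mem_preimage, mem_Iic, min_le_iff]
      by_contra h'
      push Not at h'
      exact h h'
    exact absurd (csInf_le ⟨r0, fun x hx => hx.1.1⟩ this) (not_le.2 hx.2)
  have pa0 : 0 < fa r0 := by simp only [fa]; linarith
  have pb0 : 0 < fb r0 := by simp only [fb]; linarith
  have pc0 : 0 < fc r0 := by simp only [fc]; linarith
  have hlt : r0 < s := by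
    refine lt_of_le_of_ne hs0 fun h => ?_
    simp only [mem_preimage, mem_Iic, min_le_iff, ← h] at hsbad
    rcases hsbad with h' | h' | h' <;> linarith
  have hsub : Icc r0 s ⊆ Ico r0 1 := fun x hx => hI ⟨hx.1, hx.2.trans hs1⟩
  have qa : 0 < fa s := by
    refine stays_positive hlt (fun x hx => (da x (hsub hx)).1) (fun x hx => (da x (hsub hx)).2)
      pa0 (by linarith) fun x hx => ?_
    have hx1 : x < 1 := (hsub (Ioo_subset_Icc_self hx)).2
    have h1 := ia x ⟨hx.1, hx1⟩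
    have h2 := (before x (Ioo_subset_Ico_self hx)).2.1
    have h3 := mul_nonneg hDpos.le (w_pos (β + 2) hx1).le
    have h4 := mul_le_mul_of_nonneg_left ea h3
    simp only [fb] at h2
    nlinarith
  have qb : 0 < fb s := by
    refine stays_positive hlt (fun x hx => (db x (hsub hx)).1) (fun x hx => (db x (hsub hx)).2)
      pb0 (by linarith) fun x hx => ?_
    have hx1 : x < 1 := (hsub (Ioo_subset_Icc_self hx)).2
    obtain ⟨h2, -, h2c⟩ := before x (Ioo_subset_Ico_self hx)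
    simp only [fa, fc] at h2 h2c
    have hne0 : 1 - x ≠ 0 := (sub_pos.2 hx1).ne'
    have hpow : (0 : ℝ) < (1 - x) ^ 4 := pow_pos (by linarith) 4
    have e : P / (1 - x) ^ 4 * (D * w β x) = P * (D * w (β + 4) x) := by
      rw [← w_shift β 4 hx1]
      push_cast
      field_simp
    have h1 := ib x ⟨hx.1, hx1⟩
    have h1a := mul_le_mul_of_nonneg_left (sub_pos.1 h2).le (div_nonneg hP hpow.le)
    have h1c := mul_le_mul_of_nonneg_left (sub_pos.1 h2c).le hL
    have h4 := mul_le_mul_of_nonneg_left eb (mul_nonneg hDpos.le (w_pos (β + 4) hx1).le)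
    nlinarith
  have qc : 0 < fc s := by
    refine stays_positive hlt (fun x hx => (dc x (hsub hx)).1) (fun x hx => (dc x (hsub hx)).2)
      pc0 (by linarith) fun x hx => ?_
    have hx1 : x < 1 := (hsub (Ioo_subset_Icc_self hx)).2
    have h2 := (before x (Ioo_subset_Ico_self hx)).2.1
    simp only [fb] at h2
    have hne0 : 1 - x ≠ 0 := (sub_pos.2 hx1).ne'
    have hpow : (0 : ℝ) < (1 - x) ^ 4 := pow_pos (by linarith) 4
    have e : Q / (1 - x) ^ 4 * (D * (b0 * w (β + 2) x)) = Q * b0 * (D * w (β + 6) x) := by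
      rw [← w_shift (β + 2) 4 hx1, show β + 2 + ((4 : ℕ) : ℝ) = β + 6 by push_cast; ring]
      field_simp
    have h1 := ic x ⟨hx.1, hx1⟩
    have h1b := mul_le_mul_of_nonneg_left (sub_pos.1 h2).le (div_nonneg hQ hpow.le)
    have h4 := mul_le_mul_of_nonneg_left ec (mul_nonneg hDpos.le (w_pos (β + 6) hx1).le)
    nlinarith
  simp only [mem_preimage, mem_Iic, min_le_iff] at hsbad
  rcases hsbad with h | h | h <;> linarith

end Vale.Agent.P142
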