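import Vale.Agent.P142.Mean
import Vale.Agent.P142.System

/-!
P142: for a locally univalent map of the disc whose Schwarzian norm is at most `97/25`, the square
mean of `1/f'` on the circle of radius `r` is at most a multiple of `(1 - r) ^ (-999/1000)`.
-/

noncomputable section

open Set MeasureTheory intervalIntegral
open scoped Real

namespace Vale.Agent.P142

theorem isOpen_disc : IsOpen disc := Metric.isOpen_ball

theorem mem_Ioo_of {r : ℝ} (h0 : 0 ≤ r) (h1 : r < 1) : r ∈ Ioo (-1 : ℝ) 1 := ⟨by linarith, h1⟩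

/-- `J` of a differentiable function has two derivatives, the second at most `4 J (deriv u)`. -/
theorem J_derivs {u : ℂ → ℂ} (hu : DifferentiableOn ℂ u disc) :
    ∃ j1 j2 : ℝ → ℝ, (∀ r ∈ Ico (0 : ℝ) 1, HasDerivAt (J u) (j1 r) r ∧ HasDerivAt j1 (j2 r) r) ∧
      (∀ r ∈ Ioo (0 : ℝ) 1, j2 r ≤ 4 * J (deriv u) r) ∧ MonotoneOn (J u) (Ico 0 1) := by
  have hu1 := hu.deriv isOpen_disc
  have h1 : ∀ z ∈ disc, HasDerivAt u (deriv u z) z := fun z hz =>
    (hu.differentiableAt (isOpen_disc.mem_nhds hz)).hasDerivAt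
  have h2 : ∀ z ∈ disc, HasDerivAt (deriv u) (deriv (deriv u) z) z := fun z hz =>
    (hu1.differentiableAt (isOpen_disc.mem_nhds hz)).hasDerivAt
  have hc : ContinuousOn (deriv (deriv u)) disc := (hu1.deriv isOpen_disc).continuousOn
  exact ⟨J1 u (deriv u), J2 u (deriv u) (deriv (deriv u)),
    fun r hr => ⟨hasDerivAt_J h1 h2 (mem_Ioo_of hr.1 hr.2),
      hasDerivAt_J1 h1 h2 hc (mem_Ioo_of hr.1 hr.2)⟩,
    fun r hr => J2_le h1 h2 hc hr, J_monotoneOn h1 h2 hc⟩

theorem J_le {v : ℂ → ℂ} (hv : ContinuousOn v disc) {r : ℝ} (hr : |r| < 1) {p q : ℂ → ℂ}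
    (hp : ContinuousOn p disc) (hq : ContinuousOn q disc) {α γ : ℝ}
    (h : ∀ θ, ‖v (pt r θ)‖ ^ 2 ≤ α * ‖p (pt r θ)‖ ^ 2 + γ * ‖q (pt r θ)‖ ^ 2) :
    J v r ≤ α * J p r + γ * J q r := by
  rw [J, J, J, ← intervalIntegral.integral_const_mul, ← intervalIntegral.integral_const_mul,
    ← intervalIntegral.integral_add (((continuous_sq hp hr).const_mul α).intervalIntegrable _ _)
      (((continuous_sq hq hr).const_mul γ).intervalIntegrable _ _)]
  exact intervalIntegral.integral_mono_on (by linarith [Real.pi_pos])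
    ((continuous_sq hv hr).intervalIntegrable _ _)
    ((((continuous_sq hp hr).const_mul α).add
      ((continuous_sq hq hr).const_mul γ)).intervalIntegrable _ _) fun θ _ => h θ

theorem split_sq (x y : ℂ) {τ : ℝ} (hτ : 0 < τ) :
    ‖x - y‖ ^ 2 ≤ (1 + τ) * ‖x‖ ^ 2 + (1 + 1 / τ) * ‖y‖ ^ 2 := by
  have h := norm_sub_le x y
  have h0 := norm_nonneg (x - y)
  have h1 : 2 * ‖x‖ * ‖y‖ ≤ τ * ‖x‖ ^ 2 + 1 / τ * ‖y‖ ^ 2 := by
    have e : τ * ‖x‖ ^ 2 + 1 / τ * ‖y‖ ^ 2 - 2 * ‖x‖ * ‖y‖ = (τ * ‖x‖ - ‖y‖) ^ 2 / τ := by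
      field_simp
      ring
    linarith [div_nonneg (sq_nonneg (τ * ‖x‖ - ‖y‖)) hτ.le]
  nlinarith

/-- The square mean of `1/f'` grows slower than `1 / (1 - r)`. -/
theorem inv_deriv_bound {f : ℂ → ℂ} (hf : DifferentiableOn ℂ f disc)
    (hne : ∀ z ∈ disc, deriv f z ≠ 0)
    (hS : ∀ z ∈ disc, (1 - ‖z‖ ^ 2) ^ 2 * ‖iteratedDeriv 3 f z / deriv f z -
      3 / 2 * (iteratedDeriv 2 f z / deriv f z) ^ 2‖ ≤ 97 / 25) :
    ∃ D, ∀ r ∈ Ico (0 : ℝ) 1, J (fun z => 1 / deriv f z) r ≤ D * (1 - r) ^ (-(999 / 1000 : ℝ)) := by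
  have hd1 := hf.deriv isOpen_disc
  have hd2 := hd1.deriv isOpen_disc
  have hd3 := hd2.deriv isOpen_disc
  set f1 := deriv f with hf1
  set f2 := deriv f1 with hf2
  set f3 := deriv f2 with hf3
  set S : ℂ → ℂ := fun z => f3 z / f1 z - 3 / 2 * (f2 z / f1 z) ^ 2 with hSdef
  have hS' : ∀ z ∈ disc, (1 - ‖z‖ ^ 2) ^ 2 * ‖S z‖ ≤ 97 / 25 := fun z hz => by
    have h := hS z hz
    simp only [iteratedDeriv_succ, iteratedDeriv_zero] at h
    exact h
  set g : ℂ → ℂ := fun z => 1 / f1 z with hgdef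
  set p : ℂ → ℂ := fun z => -f2 z / (2 * f1 z ^ 2) with hpdef
  set q : ℂ → ℂ := fun z => f2 z ^ 2 / (4 * f1 z ^ 3) with hqdef
  have D1 : ∀ z ∈ disc, HasDerivAt f1 (f2 z) z := fun z hz =>
    (hd1.differentiableAt (isOpen_disc.mem_nhds hz)).hasDerivAt
  have D2 : ∀ z ∈ disc, HasDerivAt f2 (f3 z) z := fun z hz =>
    (hd2.differentiableAt (isOpen_disc.mem_nhds hz)).hasDerivAt
  have n1 : ∀ z ∈ disc, f1 z ≠ 0 := hne
  have dg : ∀ z ∈ disc, HasDerivAt g (2 * p z) z := fun z hz => by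
    refine ((hasDerivAt_const z (1 : ℂ)).div (D1 z hz) (n1 z hz)).congr_deriv ?_
    have := n1 z hz
    simp only [hpdef]
    field_simp
    ring
  have dp : ∀ z ∈ disc, HasDerivAt p (q z - S z / 2 * g z) z := fun z hz => by
    refine ((D2 z hz).neg.div (((D1 z hz).pow 2).const_mul 2)
      (mul_ne_zero two_ne_zero (pow_ne_zero _ (n1 z hz)))).congr_deriv ?_
    have := n1 z hz
    simp only [hqdef, hSdef, hgdef, Pi.pow_apply, Pi.neg_apply]
    field_simp
    ring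
  have dq : ∀ z ∈ disc, HasDerivAt q (-(S z * p z)) z := fun z hz => by
    refine (((D2 z hz).pow 2).div (((D1 z hz).pow 3).const_mul 4)
      (mul_ne_zero (by norm_num) (pow_ne_zero _ (n1 z hz)))).congr_deriv ?_
    have := n1 z hz
    simp only [hpdef, hSdef, Pi.pow_apply, Pi.neg_apply]
    field_simp
    ring
  have dfg : DifferentiableOn ℂ g disc := fun z hz => (dg z hz).differentiableAt.differentiableWithinAt
  have dfp : DifferentiableOn ℂ p disc := fun z hz => (dp z hz).differentiableAt.differentiableWithinAt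
  have dfq : DifferentiableOn ℂ q disc := fun z hz => (dq z hz).differentiableAt.differentiableWithinAt
  obtain ⟨a1, a2, ha, ia, hmono⟩ := J_derivs dfg
  obtain ⟨b1, b2, hb, ib, -⟩ := J_derivs dfp
  obtain ⟨c1, c2, hc, ic, -⟩ := J_derivs dfq
  -- the bound of the Schwarzian near the boundary
  have hK : ∀ r ∈ Ioo (999 / 1000 : ℝ) 1, ∀ θ,
      ‖S (pt r θ)‖ ≤ 2 * (4855 / 10000) / (1 - r) ^ 2 := fun r hr θ => by
    have hr0 : 0 ≤ r := by linarith [hr.1]
    have hz : pt r θ ∈ disc := pt_mem (by rw [abs_of_nonneg hr0]; exact hr.2) θ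
    have h := hS' _ hz
    rw [norm_pt, sq_abs] at h
    have hx : 0 < (1 - r) ^ 2 := pow_pos (by linarith [hr.2]) 2
    rw [le_div_iff₀ hx]
    have h2 : (1999 / 1000 : ℝ) ^ 2 ≤ (1 + r) ^ 2 := by nlinarith [hr.1]
    have h3 := mul_le_mul_of_nonneg_right h2 (mul_nonneg hx.le (norm_nonneg (S (pt r θ))))
    nlinarith
  have habs : ∀ {r : ℝ}, r ∈ Ioo (999 / 1000 : ℝ) 1 → |r| < 1 := fun {r} hr => by
    rw [abs_of_nonneg (by linarith [hr.1])]
    exact hr.2
  have cS : ContinuousOn S disc :=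
    (hd3.continuousOn.div hd1.continuousOn n1).sub
      (continuousOn_const.mul ((hd2.continuousOn.div hd1.continuousOn n1).pow 2))
  have ia' : ∀ r ∈ Ioo (999 / 1000 : ℝ) 1, a2 r ≤ 16 * J p r := fun r hr => by
    have h := ia r ⟨by linarith [hr.1], hr.2⟩
    have e : J (deriv g) r ≤ 4 * J p r + 0 * J p r := by
      refine J_le (dfg.deriv isOpen_disc).continuousOn (habs hr) dfp.continuousOn dfp.continuousOn
        fun θ => ?_
      rw [(dg _ (pt_mem (habs hr) θ)).deriv, norm_mul, Complex.norm_two]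
      exact le_of_eq (by ring)
    linarith
  set τ : ℝ := 4855 / 1253 with hτdef
  have ib' : ∀ r ∈ Ioo (999 / 1000 : ℝ) 1, b2 r ≤ 4 * (1 + τ) * J q r +
      4 * (1 + 1 / τ) * (4855 / 10000) ^ 2 / (1 - r) ^ 4 * J g r := fun r hr => by
    have h := ib r ⟨by linarith [hr.1], hr.2⟩
    have hx : 0 < 1 - r := by linarith [hr.2]
    have e : J (deriv p) r ≤ (1 + τ) * J q r +
        (1 + 1 / τ) * (4855 / 10000) ^ 2 / (1 - r) ^ 4 * J g r := by
      refine J_le (dfp.deriv isOpen_disc).continuousOn (habs hr) dfq.continuousOn dfg.continuousOn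
        fun θ => ?_
      rw [(dp _ (pt_mem (habs hr) θ)).deriv]
      refine (split_sq _ _ (τ := τ) (by norm_num [hτdef])).trans ?_
      refine add_le_add le_rfl ?_
      have hs : ‖S (pt r θ) / 2 * g (pt r θ)‖ ≤ 4855 / 10000 / (1 - r) ^ 2 * ‖g (pt r θ)‖ := by
        rw [norm_mul, norm_div, Complex.norm_two]
        refine mul_le_mul_of_nonneg_right ?_ (norm_nonneg _)
        have := hK r hr θ
        rw [div_le_iff₀ two_pos]
        exact this.trans (le_of_eq (by ring))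
      have hs2 := pow_le_pow_left₀ (norm_nonneg _) hs 2
      have hpos : (0 : ℝ) ≤ 1 + 1 / τ := by norm_num [hτdef]
      exact (mul_le_mul_of_nonneg_left hs2 hpos).trans (le_of_eq (by field_simp))
    have e4 : 4 * (1 + 1 / τ) * (4855 / 10000) ^ 2 / (1 - r) ^ 4 * J g r =
        4 * ((1 + 1 / τ) * (4855 / 10000) ^ 2 / (1 - r) ^ 4 * J g r) := by ring
    linarith
  have ic' : ∀ r ∈ Ioo (999 / 1000 : ℝ) 1,
      c2 r ≤ 16 * (4855 / 10000) ^ 2 / (1 - r) ^ 4 * J p r := fun r hr => by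
    have h := ic r ⟨by linarith [hr.1], hr.2⟩
    have e : J (deriv q) r ≤ 4 * (4855 / 10000) ^ 2 / (1 - r) ^ 4 * J p r + 0 * J p r := by
      refine J_le (dfq.deriv isOpen_disc).continuousOn (habs hr) dfp.continuousOn dfp.continuousOn
        fun θ => ?_
      rw [(dq _ (pt_mem (habs hr) θ)).deriv, norm_neg, norm_mul, mul_pow, zero_mul, add_zero]
      refine mul_le_mul_of_nonneg_right ((pow_le_pow_left₀ (norm_nonneg _) (hK r hr θ) 2).trans
        (le_of_eq (by rw [div_pow, ← pow_mul]; ring))) (sq_nonneg _)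
    have e4 : 16 * (4855 / 10000) ^ 2 / (1 - r) ^ 4 * J p r =
        4 * (4 * (4855 / 10000) ^ 2 / (1 - r) ^ 4 * J p r) := by ring
    linarith
  have hsub : ∀ {r : ℝ}, r ∈ Ico (999 / 1000 : ℝ) 1 → r ∈ Ico (0 : ℝ) 1 := fun {r} hr =>
    ⟨by linarith [hr.1], hr.2⟩
  obtain ⟨D, hD⟩ := system_bound (b0 := 1248 / 10000) (c0 := (1253 / 10000) ^ 2)
    (β := 999 / 1000) (r0 := 999 / 1000) (L := 4 * (1 + τ))
    (P := 4 * (1 + 1 / τ) * (4855 / 10000) ^ 2) (Q := 16 * (4855 / 10000) ^ 2)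
    (by norm_num) (by norm_num) (by norm_num) (by norm_num) (by norm_num [hτdef])
    (by norm_num [hτdef]) (by norm_num)
    (fun r hr => ha r (hsub hr)) (fun r hr => hb r (hsub hr)) (fun r hr => hc r (hsub hr))
    ia' ib' ic' (by norm_num) (by norm_num [hτdef]) (by norm_num)
  refine ⟨max D (J g (999 / 1000)), fun r hr => ?_⟩
  have hx : 0 < 1 - r := by linarith [hr.2]
  rcases le_or_gt (999 / 1000 : ℝ) r with h | h
  · exact (hD r ⟨h, hr.2⟩).trans
      (mul_le_mul_of_nonneg_right (le_max_left _ _) (Real.rpow_nonneg hx.le _))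
  · have h1 := hmono hr (show (999 / 1000 : ℝ) ∈ Ico (0 : ℝ) 1 by norm_num) h.le
    have h2 : 1 ≤ (1 - r) ^ (-(999 / 1000 : ℝ)) :=
      Real.one_le_rpow_of_pos_of_le_one_of_nonpos hx (by linarith [hr.1]) (by norm_num)
    calc J (fun z => 1 / deriv f z) r ≤ max D (J g (999 / 1000)) * 1 := by
          rw [mul_one]
          exact h1.trans (le_max_right _ _)
      _ ≤ _ := mul_le_mul_of_nonneg_left h2 ((J_nonneg _ _).trans (le_max_right _ _))

end Vale.Agent.P142
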